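import Vale.Agent.P106.R.E8.SigRay
import Vale.Agent.P106.R.H518.E12
import Vale.Agent.P106.R.SIG.Sig
import Vale.Agent.P122.H912.Cnt

/-!
# P106 / R / E8 : [CUT2] lower bound of the value of the box variable `zz` (helper11)

* `hc_cnt` : entropy from the number of values.
* `hc_N_sig`, `hc_N_N`, `hc_T_T` : plank given its piece, plank of a higher level, time block.
* `cell_bd` : the digits of the piece in the box of the plank `W c'`.
* `stCUT2` : `15 ≤ A → StCUT2 A`.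
-/

set_option autoImplicit false

namespace Vale.Agent.P106.R.E8.H11

open Filter Topology Finset Vale.Agent.P127 Vale.Agent.P127.Stk Vale.Agent.P127.U Vale.Agent.P127.U.Sys Vale.Agent.P106.R.C2
  Vale.Agent.P106.R.E Vale.Agent.P106.R.E8
open Vale.Agent.P106.W (Cbx)
open Vale.Agent.P122.H912 (hc_le_nu card_Icc_le card_box_le)

/-! ### counting -/

theorem ediv_close {a b : ℤ} {m : ℕ} (h : a / 2 ^ m = b / 2 ^ m) : |a - b| ≤ ((1 * 2 ^ m : ℕ) : ℤ) := by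
  have h0 : (0:ℤ) < 2 ^ m := by positivity
  have h1 := Int.emod_nonneg a h0.ne'
  have h2 := Int.emod_lt_of_pos a h0
  have h3 := Int.emod_nonneg b h0.ne'
  have h4 := Int.emod_lt_of_pos b h0
  have h5 := Int.mul_ediv_add_emod a (2 ^ m)
  have h6 := Int.mul_ediv_add_emod b (2 ^ m)
  rw [h] at h5
  push_cast
  rw [abs_le]
  constructor <;> linarith

theorem mem_win {x y A : ℤ} (h : |y - x| ≤ A) : y ∈ Finset.Icc (x - A) (x + A) := by
  have := abs_le.1 h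
  rw [Finset.mem_Icc]
  constructor <;> linarith [this.1, this.2]

/-- number of values given `Y` -/
theorem hc_cnt {S : Sys} {α β : Type*} {X : S.RV α} {Y : S.RV β} {n : ℕ → ℕ} (hn : S.Bd n) (M : ℕ) (hM : 1 ≤ M)
    (h : ∀ᶠ i in (uf : Filter ℕ), ∀ ω, 0 < (S.P i).w ω → ∃ U : Finset α, U.card ≤ M * 2 ^ n i ∧
      ∀ ω', 0 < (S.P i).w ω' → Y i ω' = Y i ω → X i ω' ∈ U) : S.hc X Y ≤ S.nu n := by
  refine hc_le_nu hn (Real.log M) ?_
  filter_upwards [h] with i hi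
  have h1 := Stk.hc_le_log (S.P i) (X i) (Y i) (M * 2 ^ n i) hi
  refine h1.trans (le_of_eq ?_)
  have hM' : (M : ℝ) ≠ 0 := by
    have : (0:ℝ) < M := by exact_mod_cast hM
    exact this.ne'
  push_cast
  rw [Real.log_mul hM' (by positivity), Real.log_pow]
  ring

section flg

variable {K : ℕ} (F : Flg K)

theorem ev_n : ∀ᶠ i in (uf : Filter ℕ), 0 < F.n i := by
  filter_upwards [F.S.L_pos] with a ha
  rw [F.L_eq a] at ha
  rcases Nat.eq_zero_or_pos (F.n a) with h0 | h0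
  · rw [h0, mul_zero] at ha
    exact absurd ha (lt_irrefl _)
  · exact h0

theorem nu_mul (hK : 1 ≤ K) (m : ℕ) : F.S.nu (fun a => m * F.n a) = (m : ℝ) / K := by
  refine ulim_eq ?_
  refine tendsto_const_nhds.congr' ?_
  filter_upwards [ev_n F] with a hn'
  have hK0 : (0:ℝ) < K := by exact_mod_cast hK
  have hn : (0:ℝ) < F.n a := by exact_mod_cast hn'
  rw [F.L_eq a]
  push_cast
  field_simp

theorem bd_mul (hK : 1 ≤ K) (m : ℕ) : F.S.Bd fun a => m * F.n a := by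
  refine ⟨m, Eventually.of_forall fun a => ?_⟩
  rw [F.L_eq a]
  have h : F.n a ≤ K * F.n a := Nat.le_mul_of_pos_left _ hK
  exact_mod_cast Nat.mul_le_mul_left m h

/-- the index of the piece in terms of the other digits of the plank -/
theorem wsg_eq (n h c d : ℕ) (S : Nd) : wsg n h c d S = S.w + wsg n h c d ⟨S.τ, S.o, S.T, 0⟩ := by
  unfold wsg
  simp only [zero_add]

/-- the plank given its piece -/
theorem hc_N_sig (hK : 1 ≤ K) {c d : ℕ} (hcd : c ≤ d) : F.S.hc (F.N c) (F.sig c d) ≤ 4 * (((d:ℝ) - c) / K) := by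
  classical
  have h1 : F.S.hc (F.N c) (F.sig c d) ≤ F.S.nu fun i => (4 * (d - c)) * F.n i := by
    refine hc_cnt (bd_mul F hK _) (3 ^ 2 * 3 ^ 2) (by norm_num) (Eventually.of_forall fun i ω hω => ?_)
    set m : ℕ := (d - c) * F.n i with hm
    refine ⟨((Fintype.piFinset fun k => Finset.Icc ((F.N c i ω).τ k - ((1 * 2 ^ m : ℕ) : ℤ)) ((F.N c i ω).τ k + ((1 * 2 ^ m : ℕ) : ℤ))) ×ˢ
      (Fintype.piFinset fun k => Finset.Icc ((F.N c i ω).o k - ((1 * 2 ^ m : ℕ) : ℤ)) ((F.N c i ω).o k + ((1 * 2 ^ m : ℕ) : ℤ)))).image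
      (fun a => (⟨a.1, a.2, (F.N c i ω).T, (F.sig c d i ω).w - wsg (F.n i) F.h c d ⟨a.1, a.2, (F.N c i ω).T, 0⟩⟩ : Nd)), ?_, ?_⟩
    · refine Finset.card_image_le.trans ?_
      rw [Finset.card_product]
      refine (Nat.mul_le_mul (card_box_le _ 1 m) (card_box_le _ 1 m)).trans (le_of_eq ?_)
      have e : 4 * (d - c) * F.n i = 2 * m + 2 * m := by rw [hm]; ring
      rw [e, pow_add]
      ring
    · intro ω' hω' e
      rw [Finset.mem_image]
      refine ⟨((F.N c i ω').τ, (F.N c i ω').o), ?_, ?_⟩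
      · rw [Finset.mem_product, Fintype.mem_piFinset, Fintype.mem_piFinset]
        refine ⟨fun k => mem_win (ediv_close ?_), fun k => mem_win (ediv_close ?_)⟩
        · exact congrFun (congrArg Nd.τ e) k
        · exact congrFun (congrArg Nd.o e) k
      · have eT : (F.N c i ω').T = (F.N c i ω).T := (congrArg Nd.T e : (F.sig c d i ω').T = (F.sig c d i ω).T)
        have ew : (F.sig c d i ω').w = (F.sig c d i ω).w := congrArg Nd.w e
        have ew' : (F.sig c d i ω').w = (F.N c i ω').w + wsg (F.n i) F.h c d ⟨(F.N c i ω').τ, (F.N c i ω').o, (F.N c i ω').T, 0⟩ :=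
          wsg_eq _ _ _ _ _
        refine Nd.ext rfl rfl eT.symm ?_
        show (F.sig c d i ω).w - wsg (F.n i) F.h c d ⟨(F.N c i ω').τ, (F.N c i ω').o, (F.N c i ω).T, 0⟩ = (F.N c i ω').w
        rw [← ew, ew', eT]
        ring
  refine h1.trans (le_of_eq ?_)
  rw [nu_mul F hK]
  push_cast [Nat.cast_sub hcd]
  ring

/-- the plank of a higher level -/
theorem hc_N_N (hK : 1 ≤ K) (hN : ∀ c, c ≤ K → Tame (F.N c)) {c c' : ℕ} (hcc : c ≤ c') (hc' : c' ≤ K) :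
    F.S.hc (F.N c') (F.N c) ≤ 2 * (((c':ℝ) - c) / K) := by
  classical
  have hT := H518.tre F hN
  have tY : Tame (F.Y c') := (hN c' hc').mono (hT.YN c' hc')
  have h0 := hc_le_add (hN c' hc') tY (F.N c)
  have h00 : F.S.hc (F.N c') (Sys.pr (F.Y c') (F.N c)) = 0 := by
    refine hc_fn ?_
    filter_upwards [hT.NNY hcc hc'] with i hi ω ω' p p' e
    refine hi ω ω' p p' ?_
    have e1 : F.Y c' i ω = F.Y c' i ω' := congrArg Prod.fst e
    have e2 : F.N c i ω = F.N c i ω' := congrArg Prod.snd e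
    exact Prod.ext e2 e1
  have h1 : F.S.hc (F.Y c') (F.N c) ≤ F.S.nu fun i => (2 * (c' - c)) * F.n i := by
    refine hc_cnt (bd_mul F hK _) (3 ^ 2) (by norm_num) (Eventually.of_forall fun i ω hω => ?_)
    set m : ℕ := (c' - c) * F.n i with hm
    refine ⟨(Fintype.piFinset fun k => Finset.Icc ((F.Y c' i ω) k - ((1 * 2 ^ m : ℕ) : ℤ)) ((F.Y c' i ω) k + ((1 * 2 ^ m : ℕ) : ℤ))), ?_, ?_⟩
    · refine (card_box_le _ 1 m).trans (le_of_eq ?_)
      have e : 2 * (c' - c) * F.n i = 2 * m := by rw [hm]; ring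
      rw [e]
    · intro ω' hω' e
      have e' : F.N c i ω' = F.N c i ω := e
      rw [Fintype.mem_piFinset]
      refine fun k => mem_win (ediv_close ?_)
      have a1 := WGeo.geo_τ F hω hcc hc' k
      have a2 := WGeo.geo_τ F hω' hcc hc' k
      show (F.N c' i ω').τ k / 2 ^ m = (F.N c' i ω).τ k / 2 ^ m
      rw [hm, a1, a2, e']
  rw [nu_mul F hK] at h1
  push_cast [Nat.cast_sub hcc] at h1
  have e : 2 * ((c':ℝ) - c) / K = 2 * (((c':ℝ) - c) / K) := by ring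
  linarith

/-- the time block -/
theorem hc_T_T (hK : 1 ≤ K) {c c' : ℕ} (hcc : c ≤ c') (hc' : c' ≤ K) :
    F.S.hc (F.T c) (F.T c') ≤ 2 * (((c':ℝ) - c) / K) := by
  classical
  have h1 : F.S.hc (F.T c) (F.T c') ≤ F.S.nu fun i => (2 * (c' - c)) * F.n i := by
    refine hc_cnt (bd_mul F hK _) 3 (by norm_num) (Eventually.of_forall fun i ω hω => ?_)
    set m : ℕ := 2 * (c' - c) * F.n i with hm
    refine ⟨Finset.Icc (F.T c i ω - ((1 * 2 ^ m : ℕ) : ℤ)) (F.T c i ω + ((1 * 2 ^ m : ℕ) : ℤ)), card_Icc_le _ 1 m, ?_⟩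
    intro ω' hω' e
    refine mem_win (ediv_close ?_)
    have a1 := WGeo.geo_T F hω hcc hc'
    have a2 := WGeo.geo_T F hω' hcc hc'
    show (F.N c i ω').T / 2 ^ m = (F.N c i ω).T / 2 ^ m
    rw [hm, a1, a2]
    exact e
  rw [nu_mul F hK] at h1
  push_cast [Nat.cast_sub hcc] at h1
  have e : 2 * ((c':ℝ) - c) / K = 2 * (((c':ℝ) - c) / K) := by ring
  linarith

end flg

/-! ### geometry of the cells -/

/-- positions of the images -/
theorem dn_y {q ρ p : ℝ} {l0 l1 : Ry} (hq : 1 ≤ q) (hρ0 : 0 ≤ ρ) (hρ : ρ ≤ q)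
    (hy : ∀ k, |l1.y k - l0.y k| ≤ p) (hs : ∀ k, |l1.s k - l0.s k| ≤ p) (k : Fin 2) :
    |(l1.dn q ρ).y k - (l0.dn q ρ).y k| ≤ 2 * q * p := by
  have hq0 : 0 < q := by linarith
  have e : (l1.dn q ρ).y k - (l0.dn q ρ).y k = q * (l1.y k - l0.y k) + ρ * (l1.s k - l0.s k) := by
    simp only [Ry.dn]
    ring
  rw [e]
  refine (abs_add_le _ _).trans ?_
  rw [abs_mul, abs_mul, abs_of_pos hq0, abs_of_nonneg hρ0]
  have h1 := mul_le_mul_of_nonneg_left (hy k) hq0.le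
  have h2 := mul_le_mul hρ (hs k) (abs_nonneg _) hq0.le
  linarith

/-- the image of the frame -/
theorem dn_fr {q ρ p u H H' : ℝ} {f : Fr} {l0 l1 : Ry} (hq : 1 ≤ q) (hρ0 : 0 ≤ ρ) (hρ : ρ ≤ q)
    (hH : H = q * H') (hH' : 0 < H') (hp0 : 0 ≤ p)
    (hy : ∀ k, |l1.y k - l0.y k| ≤ p) (hs : ∀ k, |l1.s k - l0.s k| ≤ p)
    (hn : ∀ k, |f.n k| ≤ 1) (hκ : |f.κ| * p ≤ 1) (hα : |f.α| * p ≤ 1) (hκH : |f.κ| * H' * q ≤ u) (hαH : |f.α| * H' * q ≤ u) :
    (∀ k, |((f.dn q ρ).tr (l0.dn q ρ) (l1.dn q ρ)).n k| ≤ 8) ∧ |(f.dn q ρ).κ| * H ≤ 3 * u ∧ |(f.dn q ρ).α| * H ≤ u := by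
  have hq0 : 0 < q := by linarith
  have y1 := dn_y hq hρ0 hρ hy hs
  have k1 : |(f.dn q ρ).κ| ≤ |f.κ| + 2 * |f.α| := by
    show |f.κ + 2 * f.α * ρ / q| ≤ _
    refine (abs_add_le _ _).trans ?_
    have : |2 * f.α * ρ / q| ≤ 2 * |f.α| := by
      rw [abs_div, abs_mul, abs_mul, abs_of_pos hq0, abs_of_nonneg hρ0, abs_two, div_le_iff₀ hq0]
      exact mul_le_mul_of_nonneg_left hρ (by positivity)
    linarith
  have a1 : |(f.dn q ρ).α| * q ≤ |f.α| := by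
    show |f.α / q| * q ≤ _
    rw [abs_div, abs_of_pos hq0, div_mul_cancel₀ _ hq0.ne']
  refine ⟨fun k => ?_, ?_, ?_⟩
  · have e : ((f.dn q ρ).tr (l0.dn q ρ) (l1.dn q ρ)).n k = f.n k + (f.dn q ρ).κ * ((l1.dn q ρ).s k - (l0.dn q ρ).s k) -
      2 * (f.dn q ρ).α * ((l1.dn q ρ).y k - (l0.dn q ρ).y k) := rfl
    rw [e]
    have h1 : |(f.dn q ρ).κ * ((l1.dn q ρ).s k - (l0.dn q ρ).s k)| ≤ 3 := by
      rw [abs_mul]
      have h2 := mul_le_mul k1 (hs k) (abs_nonneg _) (by positivity)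
      have h3 : (|f.κ| + 2 * |f.α|) * p ≤ 3 := by linarith
      exact h2.trans h3
    have h3 : |2 * (f.dn q ρ).α * ((l1.dn q ρ).y k - (l0.dn q ρ).y k)| ≤ 4 := by
      rw [abs_mul, abs_mul, abs_two]
      have h2 := mul_le_mul_of_nonneg_left (y1 k) (show 0 ≤ 2 * |(f.dn q ρ).α| by positivity)
      have h4 := mul_le_mul_of_nonneg_right a1 hp0
      have h5 : 2 * |(f.dn q ρ).α| * (2 * q * p) = 4 * (|(f.dn q ρ).α| * q * p) := by ring
      rw [h5] at h2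
      linarith
    have h4 := abs_sub (f.n k + (f.dn q ρ).κ * ((l1.dn q ρ).s k - (l0.dn q ρ).s k))
      (2 * (f.dn q ρ).α * ((l1.dn q ρ).y k - (l0.dn q ρ).y k))
    have h5 := abs_add_le (f.n k) ((f.dn q ρ).κ * ((l1.dn q ρ).s k - (l0.dn q ρ).s k))
    have h6 := hn k
    linarith
  · have h1 := mul_le_mul_of_nonneg_right k1 (show 0 ≤ H by rw [hH]; positivity)
    have h2 : (|f.κ| + 2 * |f.α|) * H = |f.κ| * H' * q + 2 * (|f.α| * H' * q) := by
      rw [hH]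
      ring
    linarith
  · have h1 := mul_le_mul_of_nonneg_right a1 hH'.le
    have h2 : |f.α| * H' ≤ |f.α| * H' * q := le_mul_of_one_le_right (by positivity) hq
    have h3 : |(f.dn q ρ).α| * H = |(f.dn q ρ).α| * q * H' := by rw [hH]; ring
    rw [h3]
    linarith

/-- change of the values of the slab between close rays -/
theorem cl_fr {C r u H : ℝ} {g : Fr} {l1 l : Ry} (hC : 1 ≤ C) (hr0 : 0 ≤ r) (hr : r ^ 2 ≤ H) (hru : r ≤ u)
    (gn : ∀ k, |g.n k| ≤ 8) (kH : |g.κ| * H ≤ 3 * u) (aH : |g.α| * H ≤ u) (hcl : Cl C r H l1 l) :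
    |GA g l1 l| ≤ 21 * C ^ 2 * u ∧ |GB g l1 l| ≤ 25 * C ^ 2 * u := by
  have hu0 : 0 ≤ u := hr0.trans hru
  have hH0 : 0 ≤ H := (sq_nonneg r).trans hr
  obtain ⟨c1, c2, c3⟩ := hcl
  have hCr : C ^ 2 * r ^ 2 ≤ C ^ 2 * H := mul_le_mul_of_nonneg_left hr (by positivity)
  have sq1 : ∀ {x : ℝ}, |x| ≤ C * r → x ^ 2 ≤ C ^ 2 * H := fun {x} hx => by
    rw [← sq_abs]
    have := pow_le_pow_left₀ (abs_nonneg _) hx 2
    rw [mul_pow] at this
    linarith
  have hCC : C ≤ C ^ 2 := by nlinarith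
  have hCu : C * u ≤ C ^ 2 * u := mul_le_mul_of_nonneg_right hCC hu0
  have hru' : C * r ≤ C * u := mul_le_mul_of_nonneg_left hru (by linarith)
  have kd : |g.κ * dc l1 l| ≤ 3 * (C * u) := by
    rw [abs_mul]
    have h1 := mul_le_mul_of_nonneg_left c3 (abs_nonneg g.κ)
    have h2 : |g.κ| * (C * H) = C * (|g.κ| * H) := by ring
    have h3 := mul_le_mul_of_nonneg_left kH (show 0 ≤ C by linarith)
    linarith
  constructor
  · unfold GA
    have b1 : |∑ k, g.n k * (l.y k - l1.y k)| ≤ 2 * (8 * (C * r)) := sum_mul_le gn c1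
    have b3 : |g.α * ∑ k, (l.y k - l1.y k) ^ 2| ≤ 2 * (C ^ 2 * u) := by
      rw [abs_mul, Fin.sum_univ_two, abs_of_nonneg (by positivity : 0 ≤ (l.y 0 - l1.y 0) ^ 2 + (l.y 1 - l1.y 1) ^ 2)]
      have h1 := mul_le_mul_of_nonneg_left (add_le_add (sq1 (c1 0)) (sq1 (c1 1))) (abs_nonneg g.α)
      have h2 : |g.α| * (C ^ 2 * H + C ^ 2 * H) = 2 * (C ^ 2 * (|g.α| * H)) := by ring
      have h3 := mul_le_mul_of_nonneg_left aH (show 0 ≤ C ^ 2 by positivity)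
      linarith
    have b4 := abs_sub (∑ k, g.n k * (l.y k - l1.y k) + g.κ * dc l1 l) (g.α * ∑ k, (l.y k - l1.y k) ^ 2)
    have b5 := abs_add_le (∑ k, g.n k * (l.y k - l1.y k)) (g.κ * dc l1 l)
    linarith
  · unfold GB
    have b1 : |∑ k, g.n k * (l.s k - l1.s k)| ≤ 2 * (8 * (C * r)) := sum_mul_le gn c2
    have b2 : |g.κ * (∑ k, (l.s k - l1.s k) ^ 2) / 2| ≤ 3 * (C ^ 2 * u) := by
      rw [abs_div, abs_mul, abs_two, Fin.sum_univ_two, abs_of_nonneg (by positivity : 0 ≤ (l.s 0 - l1.s 0) ^ 2 + (l.s 1 - l1.s 1) ^ 2)]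
      have h1 := mul_le_mul_of_nonneg_left (add_le_add (sq1 (c2 0)) (sq1 (c2 1))) (abs_nonneg g.κ)
      have h2 : |g.κ| * (C ^ 2 * H + C ^ 2 * H) = 2 * (C ^ 2 * (|g.κ| * H)) := by ring
      have h3 := mul_le_mul_of_nonneg_left kH (show 0 ≤ C ^ 2 by positivity)
      linarith
    have b3 : |2 * g.α * (dc l1 l - ∑ k, (l.y k - l1.y k) * (l.s k - l1.s k))| ≤ 2 * (C * u + 2 * (C ^ 2 * u)) := by
      rw [abs_mul, abs_mul, abs_two]
      have b4 : |∑ k, (l.y k - l1.y k) * (l.s k - l1.s k)| ≤ 2 * (C ^ 2 * H) := by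
        refine (sum_mul_le c1 c2).trans ?_
        have : C * r * (C * r) = C ^ 2 * r ^ 2 := by ring
        linarith
      have b5 := abs_sub (dc l1 l) (∑ k, (l.y k - l1.y k) * (l.s k - l1.s k))
      have b6 : |dc l1 l - ∑ k, (l.y k - l1.y k) * (l.s k - l1.s k)| ≤ C * H + 2 * (C ^ 2 * H) := by
        linarith
      have b7 := mul_le_mul_of_nonneg_left b6 (abs_nonneg g.α)
      have h2 : |g.α| * (C * H + 2 * (C ^ 2 * H)) = C * (|g.α| * H) + 2 * (C ^ 2 * (|g.α| * H)) := by ring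
      have h3 := mul_le_mul_of_nonneg_left aH (show 0 ≤ C ^ 2 by positivity)
      have h4 := mul_le_mul_of_nonneg_left aH (show 0 ≤ C by linarith)
      linarith
    have b4 := abs_add_le (∑ k, g.n k * (l.s k - l1.s k) + g.κ * (∑ k, (l.s k - l1.s k) ^ 2) / 2)
      (2 * g.α * (dc l1 l - ∑ k, (l.y k - l1.y k) * (l.s k - l1.s k)))
    have b5 := abs_add_le (∑ k, g.n k * (l.s k - l1.s k)) (g.κ * (∑ k, (l.s k - l1.s k) ^ 2) / 2)
    linarith

/-- a ray `l` close to the image `l1.dn` of a ray in a box around `l0`, in the box around `l0.dn` -/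
theorem cell_geo {C q ρ p u r H H' : ℝ} {f : Fr} {l0 l1 l : Ry} (hq : 1 ≤ q) (hρ0 : 0 ≤ ρ) (hρ : ρ ≤ q) (hC : 1 ≤ C)
    (hH : H = q * H') (hH' : 0 < H') (hr0 : 0 ≤ r) (hr : r ^ 2 ≤ H) (hru : r ≤ u) (hup : u ≤ p)
    (hy : ∀ k, |l1.y k - l0.y k| ≤ p) (hs : ∀ k, |l1.s k - l0.s k| ≤ p) (hd : |dc l0 l1| ≤ max (p ^ 2) H')
    (hA : q * |GA f l0 l1| ≤ u) (hB : q * |GB f l0 l1| ≤ u)
    (hn : ∀ k, |f.n k| ≤ 1) (hκ : |f.κ| * p ≤ 1) (hα : |f.α| * p ≤ 1) (hκH : |f.κ| * H' * q ≤ u) (hαH : |f.α| * H' * q ≤ u)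
    (hcl : Cl C r H (l1.dn q ρ) l) :
    (∀ k, |l.y k - (l0.dn q ρ).y k| ≤ (C + 2) * (q * p)) ∧ (∀ k, |l.s k - (l0.dn q ρ).s k| ≤ (C + 1) * p) ∧
      |dc (l0.dn q ρ) l| ≤ (2 + 3 * C) * (q * max (p ^ 2) H) ∧ |GA (f.dn q ρ) (l0.dn q ρ) l| ≤ 26 * C ^ 2 * u ∧
      |GB (f.dn q ρ) (l0.dn q ρ) l| ≤ 26 * C ^ 2 * u := by
  have hq0 : 0 < q := by linarith
  have hu0 : 0 ≤ u := hr0.trans hru
  have hp0 : 0 ≤ p := hu0.trans hup
  have hH0 : 0 < H := by rw [hH]; positivity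
  have hHH : H' ≤ H := by rw [hH]; nlinarith
  have hM1 : p ^ 2 ≤ max (p ^ 2) H := le_max_left _ _
  have hM2 : H ≤ max (p ^ 2) H := le_max_right _ _
  have hM0 : 0 ≤ max (p ^ 2) H := hH0.le.trans hM2
  have hqM : max (p ^ 2) H ≤ q * max (p ^ 2) H := le_mul_of_one_le_left hM0 hq
  have hrp : r ≤ p := hru.trans hup
  have hqp : p ≤ q * p := le_mul_of_one_le_left hp0 hq
  obtain ⟨c1, c2, c3⟩ := id hcl
  have y1 := dn_y hq hρ0 hρ hy hs
  obtain ⟨f1, f2, f3⟩ := dn_fr (l0 := l0) (l1 := l1) hq hρ0 hρ hH hH' hp0 hy hs hn hκ hα hκH hαH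
  obtain ⟨g1, g2⟩ := cl_fr hC hr0 hr hru f1 f2 f3 hcl
  have hC2 : (1:ℝ) ≤ C ^ 2 := one_le_pow₀ hC
  have huC : u ≤ C ^ 2 * u := le_mul_of_one_le_left hu0 hC2
  refine ⟨fun k => ?_, fun k => ?_, ?_, ?_, ?_⟩
  · have h1 := abs_sub_le (l.y k) ((l1.dn q ρ).y k) ((l0.dn q ρ).y k)
    have h2 := c1 k
    have h3 := y1 k
    have h4 : C * r ≤ C * (q * p) := mul_le_mul_of_nonneg_left (hrp.trans hqp) (by linarith)
    linarith
  · have h1 := abs_sub_le (l.s k) ((l1.dn q ρ).s k) ((l0.dn q ρ).s k)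
    have h2 := c2 k
    have h3 : |(l1.dn q ρ).s k - (l0.dn q ρ).s k| ≤ p := hs k
    have h4 : C * r ≤ C * p := mul_le_mul_of_nonneg_left hrp (by linarith)
    linarith
  · rw [dc_add (l0.dn q ρ) (l1.dn q ρ) l, dn_dc]
    have h1 : |q * dc l0 l1| ≤ q * max (p ^ 2) H := by
      rw [abs_mul, abs_of_pos hq0]
      exact mul_le_mul_of_nonneg_left (hd.trans (max_le_max le_rfl hHH)) hq0.le
    have h2 : |ρ * (∑ k, (l1.s k - l0.s k) ^ 2) / 2| ≤ q * max (p ^ 2) H := by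
      have h3 : ∀ k, (l1.s k - l0.s k) ^ 2 ≤ p ^ 2 := fun k => by
        rw [← sq_abs]
        exact pow_le_pow_left₀ (abs_nonneg _) (hs k) 2
      rw [Fin.sum_univ_two, abs_of_nonneg (by positivity)]
      have h4 := h3 0
      have h5 := h3 1
      have h6 : ρ * ((l1.s 0 - l0.s 0) ^ 2 + (l1.s 1 - l0.s 1) ^ 2) ≤ q * (2 * max (p ^ 2) H) :=
        mul_le_mul hρ (by linarith) (by positivity) hq0.le
      linarith
    have h3 : |dc (l1.dn q ρ) l| ≤ C * (q * max (p ^ 2) H) :=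
      c3.trans (mul_le_mul_of_nonneg_left (hM2.trans hqM) (by linarith))
    have h4 : |∑ k, ((l1.dn q ρ).s k - (l0.dn q ρ).s k) * (l.y k - (l1.dn q ρ).y k)| ≤ 2 * (p * (C * r)) := sum_mul_le hs c1
    have h5 : p * (C * r) ≤ C * (q * max (p ^ 2) H) := by
      have h6 : p * r ≤ q * max (p ^ 2) H := by
        refine le_trans ?_ (hM1.trans hqM)
        rw [sq]
        exact mul_le_mul_of_nonneg_left hrp hp0
      have h7 := mul_le_mul_of_nonneg_left h6 (show 0 ≤ C by linarith)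
      linarith
    have h6 := abs_add_le (q * dc l0 l1 + ρ * (∑ k, (l1.s k - l0.s k) ^ 2) / 2 + dc (l1.dn q ρ) l)
      (∑ k, ((l1.dn q ρ).s k - (l0.dn q ρ).s k) * (l.y k - (l1.dn q ρ).y k))
    have h7 := abs_add_le (q * dc l0 l1 + ρ * (∑ k, (l1.s k - l0.s k) ^ 2) / 2) (dc (l1.dn q ρ) l)
    have h8 := abs_add_le (q * dc l0 l1) (ρ * (∑ k, (l1.s k - l0.s k) ^ 2) / 2)
    linarith
  · rw [GA_add (f.dn q ρ) (l0.dn q ρ) (l1.dn q ρ) l, dn_GA hq0.ne']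
    have h1 : |q * GA f l0 l1 + ρ * GB f l0 l1| ≤ 2 * u := by
      refine (abs_add_le _ _).trans ?_
      rw [abs_mul, abs_mul, abs_of_pos hq0, abs_of_nonneg hρ0]
      have := mul_le_mul_of_nonneg_right hρ (abs_nonneg (GB f l0 l1))
      linarith
    have h3 := abs_add_le (q * GA f l0 l1 + ρ * GB f l0 l1) (GA ((f.dn q ρ).tr (l0.dn q ρ) (l1.dn q ρ)) (l1.dn q ρ) l)
    linarith
  · rw [GB_add (f.dn q ρ) (l0.dn q ρ) (l1.dn q ρ) l, dn_GB hq0.ne']
    have h1 : |GB f l0 l1| ≤ u := le_trans (le_mul_of_one_le_left (abs_nonneg _) hq) hB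
    have h3 := abs_add_le (GB f l0 l1) (GB ((f.dn q ρ).tr (l0.dn q ρ) (l1.dn q ρ)) (l1.dn q ρ) l)
    linarith

/-- digits of a bounded number -/
theorem floor_win {x p A : ℝ} {D m : ℕ} (hp : 0 < p) (hA : A + 1 ≤ D) (h : |x| ≤ A * (2 ^ m * p)) :
    |⌊x / p⌋ - 0| ≤ ((D * 2 ^ m : ℕ) : ℤ) := by
  have hm : (1:ℝ) ≤ 2 ^ m := one_le_pow₀ (by norm_num)
  have h1 : |x / p| ≤ A * 2 ^ m := by
    rw [abs_div, abs_of_pos hp, div_le_iff₀ hp]
    linarith
  have h2 := abs_le.1 h1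
  have h3 := Int.floor_le (x / p)
  have h4 := Int.lt_floor_add_one (x / p)
  have h5 : (A + 1) * 2 ^ m ≤ D * 2 ^ m := mul_le_mul_of_nonneg_right hA (by positivity)
  rw [sub_zero]
  have h6 : |((⌊x / p⌋ : ℤ) : ℝ)| ≤ ((D * 2 ^ m : ℕ) : ℝ) := by
    push_cast
    rw [abs_le]
    constructor <;> linarith [h2.1, h2.2]
  exact_mod_cast h6

section cut

variable {K : ℕ} {F : Flg K} {J θ H e : ℕ → ℝ} {W : ℕ → F.S.RV Cbx} {kk jj : ℕ → ℕ → ℕ}

theorem Hc_eq (F : Flg K) {c c' : ℕ} (hcc : c ≤ c') (i : ℕ) : Hc F c i = qq F c c' i * Hc F c' i := by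
  have e : (2 : ℝ) ^ (2 * c' * F.n i) = 2 ^ (2 * (c' - c) * F.n i) * 2 ^ (2 * c * F.n i) := by
    rw [← pow_add, ← add_mul]
    congr 2
    omega
  unfold Hc W.hh qq
  rw [e]
  field_simp

/-- the cell of the piece in the box of the plank `W c'` -/
noncomputable def cellv (F : Flg K) (W : ℕ → F.S.RV Cbx) (kk : ℕ → ℕ → ℕ) (m' : ℕ → ℕ) (c c' d : ℕ) :
    F.S.RV ((Fin 2 → ℤ) × (Fin 2 → ℤ) × ℤ × ℤ × ℤ) := fun i ω =>
  cell ((1 / 2 : ℝ) ^ kk c' i) ((1 / 2 : ℝ) ^ m' i) (Hc F c i) ((cfr (W c' i ω)).dn (qq F c c' i) (rr F c c' i ω))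
    (wray F W c c' i ω) (pray F c d i ω)

/-- the digits of the cell are bounded -/
theorem cell_bd (hR : RegA F J θ H e W kk jj) {c c' d : ℕ} {m' : ℕ → ℕ} (hcc : c ≤ c') (hcd : c' ≤ d) (hd : d ≤ 2 * c)
    (hdK : d ≤ K) (hh : 2 * (d - c) ≤ F.h)
    (hm : ∀ᶠ i in (uf : Filter ℕ), m' i ≤ mm F c d i ∧ m' i + 2 * (c' - c) * F.n i ≤ jj c' i ∧ kk c' i ≤ m' i) :
    ∃ A : ℝ, 0 ≤ A ∧ ∀ᶠ i in (uf : Filter ℕ), ∀ ω, 0 < (F.S.P i).w ω →
      (∀ k, |(pray F c d i ω).y k - (wray F W c c' i ω).y k| ≤ A * (2 ^ (2 * (c' - c) * F.n i) * (1 / 2 : ℝ) ^ kk c' i)) ∧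
      (∀ k, |(pray F c d i ω).s k - (wray F W c c' i ω).s k| ≤ A * (2 ^ 0 * (1 / 2 : ℝ) ^ kk c' i)) ∧
      |dc (wray F W c c' i ω) (pray F c d i ω)| ≤
        A * (2 ^ (2 * (c' - c) * F.n i) * max (((1 / 2 : ℝ) ^ kk c' i) ^ 2) (Hc F c i)) ∧
      |GA ((cfr (W c' i ω)).dn (qq F c c' i) (rr F c c' i ω)) (wray F W c c' i ω) (pray F c d i ω)| ≤
        A * (2 ^ 0 * (1 / 2 : ℝ) ^ m' i) ∧
      |GB ((cfr (W c' i ω)).dn (qq F c c' i) (rr F c c' i ω)) (wray F W c c' i ω) (pray F c d i ω)| ≤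
        A * (2 ^ 0 * (1 / 2 : ℝ) ^ m' i) := by
  obtain ⟨C, hC, hsig⟩ := sig_ray F
  have hc'K : c' ≤ K := hcd.trans hdK
  refine ⟨26 * C ^ 2, by positivity, ?_⟩
  filter_upwards [hm, hR.Wok c' hc'K] with i hi hW ω hω
  obtain ⟨m1, m2, m3⟩ := hi
  obtain ⟨w1, w2, ⟨w3, w4⟩, ⟨w5, w6⟩, w7, w8⟩ := hW ω hω
  rw [InP_iff] at w1
  obtain ⟨n1, n2, n3, n4, n5⟩ := w1
  simp only [one_mul] at n1 n2 n3 n4 n5
  set B := W c' i ω with hB
  have okα := w2.α2
  have okκ := w2.κ2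
  have okαH : |B.α| * Hc F c' i ≤ B.u1 := by
    have := w2.αH
    rw [F.hs i] at this
    exact this
  have okκH : |B.κ| * Hc F c' i ≤ B.u1 := by
    have := w2.κH
    rw [F.hs i] at this
    exact this
  have hq : (1:ℝ) ≤ qq F c c' i := one_le_pow₀ (by norm_num)
  have hu : qq F c c' i * B.u1 ≤ (1 / 2 : ℝ) ^ m' i := by
    have h1 := mul_le_mul_of_nonneg_left w6 (show 0 ≤ qq F c c' i by linarith)
    refine h1.trans ?_
    unfold qq
    rw [one_div, inv_pow, inv_pow, ← div_eq_mul_inv, div_le_iff₀ (by positivity), inv_mul_eq_div, le_div_iff₀ (by positivity),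
      ← pow_add]
    exact pow_le_pow_right₀ (by norm_num) (by omega)
  have hp2 : (1 / 2 : ℝ) ^ kk c' i ≤ 2 * B.u2 := by
    have e : (1 / 2 : ℝ) ^ (kk c' i + 1) = (1 / 2 : ℝ) ^ kk c' i / 2 := by rw [pow_succ]; ring
    rw [e] at w3
    linarith
  have hp0 : (0:ℝ) ≤ (1 / 2 : ℝ) ^ kk c' i := by positivity
  have key := cell_geo (C := C) (q := qq F c c' i) (ρ := rr F c c' i ω) (p := (1 / 2 : ℝ) ^ kk c' i)
    (u := (1 / 2 : ℝ) ^ m' i) (r := (1 / 2 : ℝ) ^ mm F c d i) (H := Hc F c i) (H' := Hc F c' i) (f := cfr B) (l0 := cray B)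
    (l1 := nray F c' i ω) (l := pray F c d i ω) hq (rr_nonneg F hω hcc hc'K) (rr_le F hω hcc hc'K) hC (Hc_eq F hcc i)
    (Hc_pos F c' i) (by positivity) (mm_sq F c d i (hcc.trans hcd) hd hh)
    (pow_le_pow_of_le_one (by norm_num) (by norm_num) m1) (pow_le_pow_of_le_one (by norm_num) (by norm_num) m3)
    (fun k => (n1 k).trans w4) (fun k => (n2 k).trans w4)
    (n3.trans (max_le_max (pow_le_pow_left₀ ((abs_nonneg _).trans (n1 0)) w4 2) le_rfl))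
    ((mul_le_mul_of_nonneg_left n4 (by linarith)).trans hu) ((mul_le_mul_of_nonneg_left n5 (by linarith)).trans hu)
    (by
      intro k
      fin_cases k
      · show |-Real.sin B.θ| ≤ 1
        rw [abs_neg]
        exact Real.abs_sin_le_one _
      · exact Real.abs_cos_le_one _)
    (by
      show |B.κ| * _ ≤ 1
      have := mul_le_mul_of_nonneg_left hp2 (abs_nonneg B.κ)
      linarith)
    (by
      show |B.α| * _ ≤ 1
      have := mul_le_mul_of_nonneg_left hp2 (abs_nonneg B.α)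
      linarith)
    (by
      show |B.κ| * _ * _ ≤ _
      have := mul_le_mul_of_nonneg_right okκH (show 0 ≤ qq F c c' i by linarith)
      linarith)
    (by
      show |B.α| * _ * _ ≤ _
      have := mul_le_mul_of_nonneg_right okαH (show 0 ≤ qq F c c' i by linarith)
      linarith)
    (hsig c c' d i hcc hcd hd hdK hh ω hω _ (by simp) _ (by simp))
  obtain ⟨k1, k2, k3, k4, k5⟩ := key
  have C1 : C + 2 ≤ 26 * C ^ 2 := by nlinarith
  have C2 : C + 1 ≤ 26 * C ^ 2 := by nlinarith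
  have C3 : 2 + 3 * C ≤ 26 * C ^ 2 := by nlinarith
  have eq : qq F c c' i = 2 ^ (2 * (c' - c) * F.n i) := rfl
  rw [eq] at k1 k3
  refine ⟨fun k => (k1 k).trans (mul_le_mul_of_nonneg_right C1 (by positivity)), fun k => ?_,
    k3.trans (mul_le_mul_of_nonneg_right C3 ?_), ?_, ?_⟩
  · rw [pow_zero, one_mul]
    exact (k2 k).trans (mul_le_mul_of_nonneg_right C2 hp0)
  · have : (0:ℝ) ≤ max (((1 / 2 : ℝ) ^ kk c' i) ^ 2) (Hc F c i) := le_max_of_le_left (by positivity)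
    positivity
  · rw [pow_zero, one_mul]
    exact k4
  · rw [pow_zero, one_mul]
    exact k5

/-- entropy of the cell -/
theorem hc_cell (hK : 1 ≤ K) (hR : RegA F J θ H e W kk jj) {c c' d : ℕ} {m' : ℕ → ℕ} (hcc : c ≤ c') (hcd : c' ≤ d)
    (hd : d ≤ 2 * c) (hdK : d ≤ K) (hh : 2 * (d - c) ≤ F.h)
    (hm : ∀ᶠ i in (uf : Filter ℕ), m' i ≤ mm F c d i ∧ m' i + 2 * (c' - c) * F.n i ≤ jj c' i ∧ kk c' i ≤ m' i)
    {β : Type*} (Y : F.S.RV β) : F.S.hc (cellv F W kk m' c c' d) Y ≤ 6 * (((c':ℝ) - c) / K) := by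
  classical
  obtain ⟨A, hA0, hA⟩ := cell_bd hR hcc hcd hd hdK hh hm
  obtain ⟨D, hD⟩ := exists_nat_ge (A + 1)
  have h1 : F.S.hc (cellv F W kk m' c c' d) Y ≤ F.S.nu fun i => (6 * (c' - c)) * F.n i := by
    refine hc_cnt (bd_mul F hK _) ((2 * D + 1) ^ 7) (Nat.one_le_pow _ _ (by omega)) ?_
    filter_upwards [hA] with i hi ω hω
    set m : ℕ := 2 * (c' - c) * F.n i with hm'
    set z : Z2 := fun _ => 0 with hz
    refine ⟨(Fintype.piFinset fun k => Finset.Icc (z k - ((D * 2 ^ m : ℕ) : ℤ)) (z k + ((D * 2 ^ m : ℕ) : ℤ))) ×ˢ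
      ((Fintype.piFinset fun k => Finset.Icc (z k - ((D * 2 ^ 0 : ℕ) : ℤ)) (z k + ((D * 2 ^ 0 : ℕ) : ℤ))) ×ˢ
      ((Finset.Icc ((0:ℤ) - ((D * 2 ^ m : ℕ) : ℤ)) ((0:ℤ) + ((D * 2 ^ m : ℕ) : ℤ))) ×ˢ
      ((Finset.Icc ((0:ℤ) - ((D * 2 ^ 0 : ℕ) : ℤ)) ((0:ℤ) + ((D * 2 ^ 0 : ℕ) : ℤ))) ×ˢ
      (Finset.Icc ((0:ℤ) - ((D * 2 ^ 0 : ℕ) : ℤ)) ((0:ℤ) + ((D * 2 ^ 0 : ℕ) : ℤ)))))), ?_, ?_⟩
    · rw [Finset.card_product, Finset.card_product, Finset.card_product, Finset.card_product]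
      refine (Nat.mul_le_mul (card_box_le z D m) (Nat.mul_le_mul (card_box_le z D 0)
        (Nat.mul_le_mul (card_Icc_le 0 D m) (Nat.mul_le_mul (card_Icc_le 0 D 0) (card_Icc_le 0 D 0))))).trans (le_of_eq ?_)
      have e1 : 6 * (c' - c) * F.n i = 2 * m + m := by rw [hm']; ring
      rw [e1, pow_add]
      ring
    · intro ω' hω' _
      obtain ⟨b1, b2, b3, b4, b5⟩ := hi ω' hω'
      rw [Finset.mem_product, Finset.mem_product, Finset.mem_product, Finset.mem_product, Fintype.mem_piFinset,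
        Fintype.mem_piFinset]
      have hp : (0:ℝ) < (1 / 2 : ℝ) ^ kk c' i := by positivity
      have hu : (0:ℝ) < (1 / 2 : ℝ) ^ m' i := by positivity
      exact ⟨fun k => mem_win (floor_win hp hD (b1 k)), fun k => mem_win (floor_win hp hD (b2 k)),
        mem_win (floor_win (lt_max_of_lt_left (by positivity)) hD b3), mem_win (floor_win hu hD b4),
        mem_win (floor_win hu hD b5)⟩
  refine h1.trans (le_of_eq ?_)
  rw [nu_mul F hK]
  push_cast [Nat.cast_sub hcc]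
  ring

/-- the volume of the cells -/
theorem lvol_bd (n h c m' k : ℕ) (hmk : m' + k ≤ 2 * c * n) :
    0 ≤ lvol n c (Vale.Agent.P106.W.hh n h c) ((1 / 2 : ℝ) ^ m') ((1 / 2 : ℝ) ^ k) ∧
    lvol n c (Vale.Agent.P106.W.hh n h c) ((1 / 2 : ℝ) ^ m') ((1 / 2 : ℝ) ^ k) + (m' + k : ℕ) ≤
      (2 * c * n : ℕ) + (2 * c * n - (h * n + 2 * k) : ℕ) := by
  have hP : (0:ℝ) < (1 / 2 : ℝ) ^ m' * (1 / 2 : ℝ) ^ k / ((1 / 2 : ℝ) ^ (c * n)) ^ 2 := by positivity
  have h1 : Real.logb 2 ((1 / 2 : ℝ) ^ m' * (1 / 2 : ℝ) ^ k / ((1 / 2 : ℝ) ^ (c * n)) ^ 2) =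
      (2 * c * n : ℕ) - (m' + k : ℕ) := by
    have e : (1 / 2 : ℝ) ^ m' * (1 / 2 : ℝ) ^ k / ((1 / 2 : ℝ) ^ (c * n)) ^ 2 = 2 ^ (2 * c * n) / 2 ^ (m' + k) := by
      rw [← pow_add, ← pow_mul, one_div, inv_pow, inv_pow, div_inv_eq_mul, mul_comm, ← div_eq_mul_inv]
      congr 2
      ring
    rw [e, Real.logb_div (by positivity) (by positivity), Real.logb_pow, Real.logb_pow, Real.logb_self_eq_one (by norm_num),
      mul_one, mul_one]
  have h2 : (0:ℝ) ≤ Real.logb 2 (max 1 (((1 / 2 : ℝ) ^ k) ^ 2 / Vale.Agent.P106.W.hh n h c)) :=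
    Real.logb_nonneg (by norm_num) (le_max_left _ _)
  have h3 : Real.logb 2 (max 1 (((1 / 2 : ℝ) ^ k) ^ 2 / Vale.Agent.P106.W.hh n h c)) ≤ (2 * c * n - (h * n + 2 * k) : ℕ) := by
    have h4 : max 1 (((1 / 2 : ℝ) ^ k) ^ 2 / Vale.Agent.P106.W.hh n h c) ≤ 2 ^ (2 * c * n - (h * n + 2 * k)) := by
      refine max_le (one_le_pow₀ (by norm_num)) ?_
      have e : ((1 / 2 : ℝ) ^ k) ^ 2 / Vale.Agent.P106.W.hh n h c = 2 ^ (2 * c * n) / 2 ^ (h * n + 2 * k) := by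
        unfold Vale.Agent.P106.W.hh
        rw [← pow_mul, one_div, inv_pow, pow_add, mul_comm k 2]
        field_simp
      rw [e, div_le_iff₀ (by positivity), ← pow_add]
      exact pow_le_pow_right₀ (by norm_num) (by omega)
    have h5 := Real.logb_le_logb_of_le (b := 2) (by norm_num) (by positivity) h4
    rw [Real.logb_pow, Real.logb_self_eq_one (by norm_num), mul_one] at h5
    exact h5
  have h4 : lvol n c (Vale.Agent.P106.W.hh n h c) ((1 / 2 : ℝ) ^ m') ((1 / 2 : ℝ) ^ k) =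
      (2 * c * n : ℕ) - (m' + k : ℕ) + Real.logb 2 (max 1 (((1 / 2 : ℝ) ^ k) ^ 2 / Vale.Agent.P106.W.hh n h c)) := by
    unfold lvol
    rw [Real.logb_mul hP.ne' (by positivity), h1]
  have h5 : ((m' + k : ℕ) : ℝ) ≤ (2 * c * n : ℕ) := by exact_mod_cast hmk
  rw [h4]
  constructor
  · linarith
  · linarith

theorem bd_vx (hK : 1 ≤ K) (c : ℕ) (k j : ℕ → ℕ) : F.S.Bd fun i => vx F.h (F.n i) c (k i) (j i) := by
  obtain ⟨x, hx⟩ := bd_mul F hK (4 * c)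
  refine ⟨x, ?_⟩
  filter_upwards [hx] with i hi
  refine le_trans ?_ hi
  have h1 : vx F.h (F.n i) c (k i) (j i) ≤ 4 * c * F.n i := by
    unfold vx
    have e : 4 * c * F.n i = 2 * c * F.n i + 2 * c * F.n i := by ring
    rw [e]
    exact Nat.add_le_add (Nat.sub_le _ _) (Nat.sub_le _ _)
  exact_mod_cast h1

/-- the volume of the cells and the volume of the plank `W c'` -/
theorem ulim_lvol (hK : 1 ≤ K) (hR : RegA F J θ H e W kk jj) {c c' d : ℕ} {m' : ℕ → ℕ} (hcc : c ≤ c') (hcd : c' ≤ d)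
    (hd : d ≤ 2 * c) (hdK : d ≤ K)
    (hm : ∀ᶠ i in (uf : Filter ℕ), m' i ≤ mm F c d i ∧ m' i + 2 * (c' - c) * F.n i ≤ jj c' i ∧ kk c' i ≤ m' i) :
    (ulim fun i => lvol (F.n i) c (Hc F c i) ((1 / 2 : ℝ) ^ m' i) ((1 / 2 : ℝ) ^ kk c' i) / F.S.L i) + F.S.nu m' ≤
      F.S.nu (fun i => vx F.h (F.n i) c' (kk c' i) (jj c' i)) + F.S.nu (mm F c d) + ((d:ℝ) - c') / K := by
  have hc'K : c' ≤ K := hcd.trans hdK
  have bmm : F.S.Bd (mm F c d) := bd_mul F hK _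
  have bm' : F.S.Bd m' := by
    obtain ⟨x, hx⟩ := bmm
    refine ⟨x, ?_⟩
    filter_upwards [hx, hm] with i h1 h2
    refine le_trans ?_ h1
    exact_mod_cast h2.1
  have bv : F.S.Bd fun i => vx F.h (F.n i) c' (kk c' i) (jj c' i) := bd_vx hK c' _ _
  have u1 := Apx.UB.nu bm'
  have u2 := Apx.UB.nu bmm
  have u3 := Apx.UB.nu bv
  have u4 := Apx.UB.nu (bd_mul F hK (d - c'))
  have hcK : c ≤ K := hcc.trans hc'K
  have hmk : ∀ᶠ i in (uf : Filter ℕ), m' i + kk c' i ≤ 2 * c * F.n i := by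
    filter_upwards [hm] with i hi
    have h1 : mm F c d i ≤ c * F.n i := Nat.mul_le_mul_right _ (by omega)
    have h2 : 2 * c * F.n i = c * F.n i + c * F.n i := by ring
    omega
  have u0 : UB fun i => lvol (F.n i) c (Hc F c i) ((1 / 2 : ℝ) ^ m' i) ((1 / 2 : ℝ) ^ kk c' i) / F.S.L i := by
    obtain ⟨x, hx⟩ := bd_mul F hK (4 * c)
    refine UB.of_le (C := x) ?_ ?_
    · filter_upwards [hmk] with i h1
      exact div_nonneg (lvol_bd (F.n i) F.h c (m' i) (kk c' i) h1).1 (Nat.cast_nonneg _)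
    · filter_upwards [hmk, hx, F.S.L_pos] with i h1 h2 h3
      rw [div_le_iff₀ (by exact_mod_cast h3)]
      refine le_trans ?_ h2
      have h4 := (lvol_bd (F.n i) F.h c (m' i) (kk c' i) h1).2
      have h5 : ((2 * c * F.n i : ℕ) : ℝ) + (2 * c * F.n i - (F.h * F.n i + 2 * kk c' i) : ℕ) ≤ ((4 * c * F.n i : ℕ) : ℝ) := by
        have : 2 * c * F.n i + (2 * c * F.n i - (F.h * F.n i + 2 * kk c' i)) ≤ 4 * c * F.n i := by
          have e : 4 * c * F.n i = 2 * c * F.n i + 2 * c * F.n i := by ring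
          rw [e]
          exact Nat.add_le_add_left (Nat.sub_le _ _) _
        exact_mod_cast this
      have h6 : (0:ℝ) ≤ ((m' i + kk c' i : ℕ) : ℝ) := Nat.cast_nonneg _
      show lvol (F.n i) c (Vale.Agent.P106.W.hh (F.n i) F.h c) ((1 / 2 : ℝ) ^ m' i) ((1 / 2 : ℝ) ^ kk c' i) ≤ _
      linarith
  have e4 : ((d:ℝ) - c') / K = F.S.nu fun i => (d - c') * F.n i := by
    rw [nu_mul F hK]
    push_cast [Nat.cast_sub hcd]
    ring
  rw [e4]
  unfold Sys.nu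
  rw [← ulim_add u0 u1, ← ulim_add u3 u2, ← ulim_add (u3.add u2) u4]
  refine ulim_le (u0.add u1) ((u3.add u2).add u4) ?_
  filter_upwards [hmk, hR.Wok c' hc'K] with i h1 h2
  rw [← add_div, ← add_div, ← add_div]
  refine div_le_div_of_nonneg_right ?_ (Nat.cast_nonneg _)
  obtain ⟨ω, hω⟩ := H518.law_pos (F.S.P i)
  obtain ⟨-, -, -, -, w7, w8⟩ := h2 ω hω
  have h4 := (lvol_bd (F.n i) F.h c (m' i) (kk c' i) h1).2
  have h5 : 2 * c * F.n i + (2 * c * F.n i - (F.h * F.n i + 2 * kk c' i)) ≤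
      vx F.h (F.n i) c' (kk c' i) (jj c' i) + mm F c d i + (d - c') * F.n i + kk c' i := by
    unfold vx mm
    have e1 : 2 * c * F.n i = c * F.n i + c * F.n i := by ring
    have e2 : 2 * c' * F.n i = c' * F.n i + c' * F.n i := by ring
    have e3 : (2 * c - d) * F.n i + (d - c') * F.n i + c' * F.n i = c * F.n i + c * F.n i := by
      rw [← add_mul, ← add_mul, ← add_mul]
      congr 1
      omega
    have e5 : c * F.n i ≤ c' * F.n i := Nat.mul_le_mul_right _ hcc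
    rw [e1, e2]
    generalize (2 * c - d) * F.n i = a1 at *
    generalize (d - c') * F.n i = a2 at *
    generalize c * F.n i = a3 at *
    generalize c' * F.n i = a4 at *
    omega
  have h6 : ((2 * c * F.n i : ℕ) : ℝ) + (2 * c * F.n i - (F.h * F.n i + 2 * kk c' i) : ℕ) ≤
      (vx F.h (F.n i) c' (kk c' i) (jj c' i) : ℝ) + (mm F c d i : ℝ) + ((d - c') * F.n i : ℕ) + (kk c' i : ℝ) := by
    exact_mod_cast h5
  push_cast at h4 h6 ⊢
  show lvol (F.n i) c (Vale.Agent.P106.W.hh (F.n i) F.h c) ((1 / 2 : ℝ) ^ m' i) ((1 / 2 : ℝ) ^ kk c' i) + _ ≤ _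
  linarith

/-- the cell is a function of the plank, of the time blocks and of the piece -/
theorem fn_cell (c c' d : ℕ) (m' : ℕ → ℕ) : Sys.Fn (cellv F W kk m' c c' d)
    (Sys.pr (Sys.pr (W c') (F.T c')) (Sys.pr (F.T c) (F.sig c d))) := by
  refine Eventually.of_forall fun i ω ω' _ _ e => ?_
  simp only [pr_apply, Prod.mk.injEq] at e
  obtain ⟨⟨e1, e2⟩, e3, e4⟩ := e
  show cellv F W kk m' c c' d i ω = cellv F W kk m' c c' d i ω'
  unfold cellv wray rr pray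
  rw [e1, e2, e3, e4]

/-- **[CUT2]** -/
theorem stCUT2 {A : ℝ} (hA : 15 ≤ A) : StCUT2 A := by
  intro K F J θ H e W kk jj hK hR c c' d m' hc hcc hcd hd hdK hh hm
  have hKp : (0:ℝ) < K := by exact_mod_cast hK
  have hc'K : c' ≤ K := hcd.trans hdK
  have hcK : c ≤ K := hcc.trans hc'K
  have hN : ∀ c, c ≤ K → Tame (F.N c) := fun c hc => H518.cnt_tame (hR.N1 c hc)
  have tN := hN c hcK
  have tN' := hN c' hc'K
  have ts : Tame (F.sig c d) := SIG.tame_sig F d tN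
  have tT : Tame (F.T c) := SIG.tame_ball F tN
  have tT' : Tame (F.T c') := SIG.tame_ball F tN'
  have tP : Tame (Sys.pr (W c') (F.ball c')) := H518.cnt_tame (hR.W1 c' hc'K)
  set V := cellv F W kk m' c c' d with hV
  have tV : Tame V := (tP.pr (tT.pr ts)).mono (fn_cell c c' d m')
  set Z := zz F W kk m' c c' d with hZ
  -- the plank given the box
  have a1 : F.S.hc (F.N c') (one (S := F.S)) = H c' := (H518.e1 F J θ H e W kk jj hK hR).1 c' hc'K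
  have a2 := H518.cnt_hc_le (hR.W1 c' hc'K)
  have a3 := hc_le_add tN' tP (one (S := F.S))
  have a4 : F.S.hc (F.N c') (Sys.pr (Sys.pr (W c') (F.ball c')) one) ≤ F.S.hc (F.N c') (Sys.pr (W c') (F.ball c')) :=
    hc_mono_right tN' (Eventually.of_forall fun _ _ _ _ _ e => congrArg Prod.fst e)
  -- the time block and the cell
  set P := Sys.pr (W c') (F.ball c') with hP
  have b1 := hc_le_add tN' tT P
  have b2 : F.S.hc (F.T c) P ≤ F.S.hc (F.T c) (F.T c') :=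
    hc_mono_right tT (Eventually.of_forall fun _ _ _ _ _ e => congrArg Prod.snd e)
  have b3 := hc_T_T F hK hcc hc'K
  have b4 := hc_le_add tN' tV (Sys.pr (F.T c) P)
  have b5 := hc_cell hK hR hcc hcd hd hdK hh hm (Sys.pr (F.T c) P)
  have b6 : F.S.hc (F.N c') (Sys.pr V (Sys.pr (F.T c) P)) ≤ F.S.hc (F.N c') (Sys.pr Z (F.ball c)) := by
    refine hc_mono_right tN' (Eventually.of_forall fun i ω ω' _ _ e => ?_)
    simp only [pr_apply, Prod.mk.injEq, hP] at e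
    obtain ⟨e1, e2, e3, e4⟩ := e
    show (Z i ω, F.ball c i ω) = (Z i ω', F.ball c i ω')
    have e5 : Z i ω = ((W c' i ω, F.T c' i ω), F.T c i ω, V i ω) := rfl
    have e6 : Z i ω' = ((W c' i ω', F.T c' i ω'), F.T c i ω', V i ω') := rfl
    have e7 : F.T c' i ω = F.T c' i ω' := e4
    have e8 : F.ball c i ω = F.ball c i ω' := e2
    rw [e5, e6, e1, e2, e3, e7, e8]
  -- the piece
  have c1 := hc_le_add tN' ts (Sys.pr Z (F.ball c))
  have c2 : F.S.hc (F.N c') (Sys.pr (F.sig c d) (Sys.pr Z (F.ball c))) ≤ F.S.hc (F.N c') (F.sig c d) :=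
    hc_mono_right tN' (Eventually.of_forall fun _ _ _ _ _ e => congrArg Prod.fst e)
  have c3 := hc_le_add tN' tN (F.sig c d)
  have c4 : F.S.hc (F.N c') (Sys.pr (F.N c) (F.sig c d)) ≤ F.S.hc (F.N c') (F.N c) :=
    hc_mono_right tN' (Eventually.of_forall fun _ _ _ _ _ e => congrArg Prod.fst e)
  have c5 := hc_N_sig F hK (hcc.trans hcd)
  have c6 := hc_N_N F hK hN hcc hc'K
  -- the volume
  have d1 := ulim_lvol hK hR hcc hcd hd hdK hm
  unfold pval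
  -- the constants
  have f0 : ((d:ℝ) - c) / K = ((d:ℝ) - c') / K + ((c':ℝ) - c) / K := by ring
  have f1 : 0 ≤ ((d:ℝ) - c') / K := div_nonneg (by
    have : (c':ℝ) ≤ d := by exact_mod_cast hcd
    linarith) hKp.le
  have f2 : 0 ≤ ((c':ℝ) - c) / K := div_nonneg (by
    have : (c:ℝ) ≤ c' := by exact_mod_cast hcc
    linarith) hKp.le
  have f3 : 1 / (K:ℝ) ≤ A / K := div_le_div_of_nonneg_right (by linarith) hKp.le
  have f4 : 15 * (((d:ℝ) - c) / K) ≤ A * (((d:ℝ) - c) / K) := mul_le_mul_of_nonneg_right hA (by linarith)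
  have f5 : F.S.nu m' ≤ F.S.nu (mm F c d) := by
    have bmm : F.S.Bd (mm F c d) := bd_mul F hK _
    have bm' : F.S.Bd m' := by
      obtain ⟨x, hx⟩ := bmm
      refine ⟨x, ?_⟩
      filter_upwards [hx, hm] with i h1 h2
      refine le_trans ?_ h1
      exact_mod_cast h2.1
    refine ulim_le (Apx.UB.nu bm') (Apx.UB.nu bmm) ?_
    filter_upwards [hm] with i h2
    refine div_le_div_of_nonneg_right ?_ (Nat.cast_nonneg _)
    exact_mod_cast h2.1
  have f6 : F.S.nu (mm F c d) - F.S.nu m' ≤ A * (F.S.nu (mm F c d) - F.S.nu m') :=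
    le_mul_of_one_le_left (by linarith) (by linarith)
  linarith

end cut

end Vale.Agent.P106.R.E8.H11
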